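import Vale.Agent.P275RS.Emb
import Vale.Agent.P275S.Calc
import Vale.Agent.P275S.Unit

/-! Tautness; restriction of operators on a proper direct image to a closed subset of the base. -/

open CategoryTheory TopologicalSpace Opposite Limits P275S P275PV Topology
open CochainComplex CochainComplex.HomComplex

noncomputable section

set_option backward.isDefEq.respectTransparency false

namespace P275RS

variable {k : Type} [Field k] {X X' Y Y' Y'' Y₀ Y₀' Y₀'' S S₀ : TopCat.{0}}

theorem d_eI : app ((I k X).d 0 (0 + 1)) ⊤ (eI k X) = 0 := d_unitOf (ιI k X) _ (by omega)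

theorem unit_eq_gcl : unit k X = gcl (eI k X) d_eI :=
  (mk_eq_gcl (Cocycle.ofHom (ιI k X))).trans (gcl_congr (by simp; rfl) _)

theorem uK_eq_gcl (f : X' ⟶ X) :
    uK k f = gcl (F := (pushC k f).obj (I k X')) (n := 0) (eI k X') (d_eI (X := X')) := by
  rw [uK, unit_eq_gcl]
  exact cU_gcl f _ _

/-- The pull-back sends the unit to the unit. -/
theorem pullC_eI (f : X' ⟶ X) : app ((pullC k f).f 0) ⊤ (eI k X) = eI k X' := by
  have h := unit_pullI (k := k) f
  rw [unit_eq_gcl, uK_eq_gcl, pullI, gcl_comp_hom, gcl_eq_iff _ _ _ _ (-1) (by simp)] at h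
  obtain ⟨b, hb⟩ := h
  have hb0 : b = 0 := (rs_I k X').neg (-1) (by omega) _ b
  rw [hb0, map_zero] at hb
  exact sub_eq_zero.1 hb.symm

/-- Tautness: the pull-back to a subspace is a quasi-isomorphism at the points of the subspace. -/
theorem qisAt_pullC {i : X' ⟶ X} (hi : IsInducing i) (y : X') : QisAt (pullC k i) (i y) := by
  have R := rs_I k X
  have R' := rs_I k X'
  have he : ∀ V : Opens X, app ((pullC k i).f 0) V (res _ le_top (eI k X)) =
      res ((I k X').X 0) (le_top : (Opens.map i).obj V ≤ ⊤) (eI k X') := fun V => by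
    rw [app_res, pullC_eI]
    rfl
  intro n
  rcases lt_trichotomy n 0 with hn | rfl | hn
  · refine ⟨fun U hx s _ => ⟨U, le_rfl, hx, 0, map_zero _, 0, ?_⟩,
      fun U hx s _ _ _ => ⟨U, le_rfl, hx, 0, ?_⟩⟩
    · exact (R'.neg n hn _ _).trans (R'.neg n hn _ _).symm
    · exact (R.neg n hn _ _).trans (R.neg n hn _ _).symm
  · constructor
    · intro U hx s hs
      obtain ⟨V, hV, hyV, a, ha⟩ := R'.loc0 ((Opens.map i).obj U) s hs y hx
      have hle : (Opens.map i).obj (U ⊓ big i V) ≤ V := fun z hz => map_big_le i V hz.2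
      refine ⟨U ⊓ big i V, inf_le_left, ⟨hx, le_map_big hi V hyV⟩, a • res _ le_top (eI k X), ?_,
        0, ?_⟩
      · rw [map_smul, app_res]
        exact (congrArg (fun t => a • res _ le_top t) R.de).trans (by simp)
      · rw [map_zero, add_zero, map_smul, he]
        have := congrArg (res _ hle) ha
        rw [res_res, map_smul, res_res] at this
        exact this.symm
    · intro U hx s hs t ht
      obtain ⟨V, hV, hyV, a, ha⟩ := R.loc0 U s hs (i y) hx
      have h1 := congrArg (res _ hV) ht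
      rw [R'.neg (0 - 1) (by omega) _ t, map_zero, map_zero, ← app_res, ha, map_smul, he] at h1
      refine ⟨V, hV, hyV, 0, ?_⟩
      rw [map_zero, ha, R'.ne ((Opens.map i).obj V) y hyV a h1.symm, zero_smul]
  · constructor
    · intro U hx s hs
      obtain ⟨V, hV, hyV, t, ht⟩ := (exAt_push_emb hi (I k X') n y).2 (R'.ex n hn y) U hx s hs
      exact ⟨V, hV, hyV, 0, map_zero _, t, by rw [map_zero, zero_add, ht]⟩
    · intro U hx s hs _ _
      exact R.ex n hn (i y) U hx s hs

/-- `h` is proper and `i` is the inclusion of the inverse image of the closed set `T`. -/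
structure Cl (h : Y ⟶ S) (T : Set S) (i : Y₀ ⟶ Y) : Prop where
  pr : IsProperMap h
  cl : IsClosed T
  ind : IsInducing i
  rng : Set.range i = h ⁻¹' T

namespace Cl

variable {h : Y ⟶ S} {T : Set S} {i : Y₀ ⟶ Y} {h' : Y' ⟶ S} {i' : Y₀' ⟶ Y'}
  {h'' : Y'' ⟶ S} {i'' : Y₀'' ⟶ Y''}

theorem mem (q : Cl h T i) (y : Y₀) : (i ≫ h) y ∈ T := q.rng.subset ⟨y, rfl⟩

theorem on (q : Cl h T i) : On T (K k (i ≫ h)).c := on_push (i ≫ h) q.cl q.mem (injC_I k Y₀)

/-- Proper base change for the pull-back. -/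
theorem qis [Nice Y] (q : Cl h T i) {a : S} (ha : a ∈ T) :
    QisAt ((pushC k h).map (pullC k i)) a :=
  qisAt_push q.pr (softC_I k Y) (injC_K i).softC _ fun x hx => by
    obtain ⟨y, rfl⟩ := q.rng.symm.subset (show h x ∈ T by rwa [hx])
    exact qisAt_pullC q.ind y

/-- Maps from `Rh_* k` to a complex supported on `T` factor uniquely through the restriction. -/
theorem bij [Nice Y] (q : Cl h T i) {B : KG k (Sh k S)} (hB : On T B.c) :
    Function.Bijective fun w : K k (i ≫ h) ⟶ B => pull k i h ≫ w := by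
  rw [pull_eq_hom]
  exact hB.bij fun a ha => q.qis ha

theorem cancel [Nice Y] (q : Cl h T i) {B : KG k (Sh k S)} (hB : On T B.c)
    {w w' : K k (i ≫ h) ⟶ B} (e : pull k i h ≫ w = pull k i h ≫ w') : w = w' := (q.bij hB).1 e

theorem lift [Nice Y] (q : Cl h T i) {B : KG k (Sh k S)} (hB : On T B.c) {n : ℤ}
    {u : K k h ⟶ B} (hu : u ∈ KG.deg k _ _ n) :
    ∃ w ∈ KG.deg k (K k (i ≫ h)) B n, pull k i h ≫ w = u := by
  rw [pull_eq_hom]
  exact hB.lift (fun a ha => q.qis ha) hu

/-- The model of the restriction. -/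
def rs [Nice Y] (q : Cl h T i) : Rs T (K k h).c where
  J := (K k (i ≫ h)).c
  ρ := (pushC k h).map (pullC k i)
  on := q.on
  qis _ ha := q.qis ha

variable [Nice Y] [Nice Y'] [Nice Y'']

/-- Restriction of operators to the closed set `T`. -/
def res (q : Cl h T i) (q' : Cl h' T i') : (K k h ⟶ K k h') →ₗ[k] (K k (i ≫ h) ⟶ K k (i' ≫ h')) :=
  (q.rs (k := k)).mp q'.rs

@[reassoc] theorem pull_res (q : Cl h T i) (q' : Cl h' T i') (u : K k h ⟶ K k h') :
    pull k i h ≫ q.res q' u = u ≫ pull k i' h' := by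
  rw [pull_eq_hom, pull_eq_hom]
  exact (q.rs (k := k)).r_mp q'.rs u

theorem res_eq (q : Cl h T i) (q' : Cl h' T i') {u : K k h ⟶ K k h'}
    {w : K k (i ≫ h) ⟶ K k (i' ≫ h')} (e : pull k i h ≫ w = u ≫ pull k i' h') :
    q.res q' u = w := q.cancel q'.on (by rw [pull_res, e])

theorem res_id (q : Cl h T i) : q.res q (𝟙 (K k h)) = 𝟙 _ := q.res_eq q (by simp)

theorem res_comp (q : Cl h T i) (q' : Cl h' T i') (q'' : Cl h'' T i'') (u : K k h ⟶ K k h')
    (v : K k h' ⟶ K k h'') : q.res q'' (u ≫ v) = q.res q' u ≫ q'.res q'' v :=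
  q.res_eq q'' (by rw [pull_res_assoc, pull_res, Category.assoc])

theorem res_mem (q : Cl h T i) (q' : Cl h' T i') {n : ℤ} {u : K k h ⟶ K k h'}
    (hu : u ∈ KG.deg k _ _ n) : q.res q' u ∈ KG.deg k _ _ n :=
  (q.rs (k := k)).mp_mem_deg q'.rs hu

/-- Restriction of operators, an algebra map. -/
def resA (q : Cl h T i) : End (K k h) →ₐ[k] End (K k (i ≫ h)) :=
  AlgHom.ofLinearMap (q.res q) q.res_id fun u v => q.res_comp q q v u

theorem resA_apply (q : Cl h T i) (u : End (K k h)) : q.resA u = q.res q u := rfl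

theorem pull_resA (q : Cl h T i) (u : End (K k h)) :
    pull k i h ≫ q.resA u = u ≫ pull k i h := q.pull_res q u

theorem resA_mem (q : Cl h T i) {n : ℤ} {u : End (K k h)} (hu : u ∈ KG.deg k _ _ n) :
    q.resA u ∈ KG.deg k (K k (i ≫ h)) (K k (i ≫ h)) n := q.res_mem q hu

theorem resA_mul (q : Cl h T i) (a : H k Y) : q.resA (mul h a) = mul (i ≫ h) (pb i a) :=
  q.res_eq q (pull_mul i h a)

/-- On cohomology the restricted operator is intertwined with the operator by pull-back. -/
theorem act_res (q : Cl h T i) (q' : Cl h' T i') (u : K k h ⟶ K k h') (a : H k Y) :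
    act (q.res q' u) (pb i a) = pb i' (act u a) := by
  rw [← act_pull i h, ← act_comp, pull_res, act_comp, act_pull]

theorem actA_resA (q : Cl h T i) (u : End (K k h)) (a : H k Y) :
    actA (i ≫ h) (q.resA u) (pb i a) = pb i (actA h u a) := q.act_res q u a

end Cl

end P275RS
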