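import Vale.Agent.P275PV.Orth
import Vale.Agent.P275S.KG
import Vale.Agent.P275S.Loc

/-! Maps into complexes of injective sheaves supported on a set `S` only see the source near `S`;
the induced restriction of graded morphisms. -/

open CategoryTheory TopologicalSpace Opposite Limits P275S P275PV
open CochainComplex CochainComplex.HomComplex

noncomputable section

universe v u v' u'

namespace P275RS

variable {k : Type} [Field k]

section Abs

variable {C : Type u} [Category.{v} C] [Abelian C]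

/-- Every cocycle of the Hom complex is a coboundary. -/
def Acy (K L : CochainComplex C ℤ) : Prop :=
  ∀ (n : ℤ) (z : Cocycle K L n) (m : ℤ), m + 1 = n → ∃ α : Cochain K L m, δ m n α = z.1

set_option backward.defeqAttrib.useBackward true in
set_option backward.isDefEq.respectTransparency false in
theorem acy_of_null {K L : CochainComplex C ℤ}
    (H : ∀ (n : ℤ) (φ : K ⟶ L⟦n⟧), Nonempty (Homotopy φ 0)) : Acy K L := by
  intro n z m hm
  obtain ⟨φ, hφ⟩ := (Cocycle.equivHom ..).surjective (z.rightShift n 0 (zero_add n))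
  rw [Cocycle.ext_iff] at hφ
  dsimp at hφ
  obtain ⟨h⟩ := H n φ
  obtain ⟨f, hf⟩ := Cochain.equivHomotopy _ _ h
  simp only [Int.reduceNeg, Cochain.ofHom_zero, add_zero] at hf
  refine ⟨n.negOnePow • Cochain.rightUnshift f m (by omega), ?_⟩
  apply (Cochain.rightShiftAddEquiv _ _ _ n 0 (by simp)).injective
  dsimp
  rw [← hφ, hf, δ_units_smul, Cochain.rightShift_units_smul,
    Cochain.δ_rightUnshift _ _ _ _ 0 (by simp)]
  simp [smul_smul]

variable [Linear k C] {F F' J : CochainComplex C ℤ}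

open KG

theorem inj_deg (φ : F ⟶ F') (H : Acy (mappingCone φ) J) {n : ℤ} (z : Cocycle F' J n)
    (h : hom k φ ≫ mk k z = 0) : mk k z = 0 := by
  rw [hom_comp_mk, mk_eq_zero_iff k _ (n - 1) (by simp)] at h
  obtain ⟨y, hy⟩ := h
  obtain ⟨w, hw⟩ := H _ (mappingCone.descCocycle φ (n.negOnePow • y) z (by simp : n - 1 + 1 = n)
      (by rw [δ_units_smul, hy]; rfl)) (n - 1) (by simp)
  refine (mk_eq_zero_iff k _ (n - 1) (by simp)).2
    ⟨(Cochain.ofHom (mappingCone.inr φ)).comp w (zero_add _), ?_⟩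
  rw [δ_ofHom_comp, hw]
  simp

theorem surj_deg (φ : F ⟶ F') (H : Acy (mappingCone φ) J) {n : ℤ} (z : Cocycle F J n) :
    ∃ z' : Cocycle F' J n, hom k φ ≫ mk k z' = mk k z := by
  obtain ⟨w, hw⟩ := H _ (zcomp (mappingCone.fst φ) z (add_comm 1 n)) n rfl
  have h1 : δ n (n + 1) ((Cochain.ofHom (mappingCone.inr φ)).comp w (zero_add n)) = 0 := by
    rw [δ_ofHom_comp, hw]
    simp
  refine ⟨-(n.negOnePow • Cocycle.mk _ _ rfl h1), ?_⟩
  rw [hom_comp_mk, ← sub_eq_zero, ← map_sub, mk_eq_zero_iff k _ (n - 1) (by simp)]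
  refine ⟨-(mappingCone.inl φ).comp w (by omega), ?_⟩
  rw [δ_neg, δ_comp _ _ _ 0 (n + 1) n (by omega) (by omega) rfl, hw, mappingCone.δ_inl]
  simp [Cocycle.precomp, sub_eq_add_neg]

theorem bij_of_acy (φ : F ⟶ F') (H : Acy (mappingCone φ) J) :
    Function.Bijective fun g : (of F' : KG k C) ⟶ of J => hom k φ ≫ g := by
  constructor
  · refine (injective_iff_map_eq_zero (Preadditive.leftComp (of J : KG k C) (hom k φ))).2
      fun g hg => ext_pr fun n => ?_
    obtain ⟨z, hz⟩ := pr_mem_deg n g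
    rw [map_zero, ← hz]
    refine inj_deg φ H z ?_
    rw [hz, ← pr_comp_of_left (zero_add n) (hom_mem_deg φ)]
    exact (congrArg (pr n) hg).trans (map_zero _)
  · intro g
    induction g using ind with
    | h0 => exact ⟨0, comp_zero⟩
    | hmk n z =>
      obtain ⟨z', hz⟩ := surj_deg (k := k) φ H z
      exact ⟨_, hz⟩
    | hadd x y hx hy =>
      obtain ⟨a, rfl⟩ := hx
      obtain ⟨b, rfl⟩ := hy
      exact ⟨a + b, Preadditive.comp_add ..⟩

end Abs

section FF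

variable {C : Type u} [Category.{v} C] [Preadditive C] [Linear k C]
  {C' : Type u'} [Category.{v'} C'] [Preadditive C'] [Linear k C']
  (Φ : C ⥤ C') [Φ.Additive] [Φ.Linear k] [Φ.Full] [Φ.Faithful]

omit [Linear k C] [Linear k C'] [Φ.Linear k] [Φ.Full] in
theorem cochain_map_inj {F G : CochainComplex C ℤ} {n : ℤ} {a b : Cochain F G n}
    (h : a.map Φ = b.map Φ) : a = b := by
  ext p q hpq
  exact Φ.map_injective (Cochain.congr_v h p q hpq)

omit [Linear k C] [Linear k C'] [Φ.Linear k] [Φ.Faithful] in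
theorem cochain_map_surj {F G : CochainComplex C ℤ} {n : ℤ}
    (b : Cochain ((mapC Φ).obj F) ((mapC Φ).obj G) n) : ∃ a : Cochain F G n, a.map Φ = b :=
  ⟨Cochain.mk fun p q hpq => Φ.preimage (b.v p q hpq), by
    ext p q hpq
    exact Φ.map_preimage _⟩

instance faithful_map : (KG.map k Φ).Faithful where
  map_injective {A B} := by
    refine (injective_iff_map_eq_zero ((KG.map k Φ).mapAddHom (X := A) (Y := B))).2
      fun g hg => KG.ext_pr fun n => ?_
    obtain ⟨z, hz⟩ := KG.pr_mem_deg n g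
    have h1 : (KG.map k Φ).map (KG.mk k z) = 0 := by
      rw [hz, KG.map_pr]
      exact (congrArg (KG.pr n) hg).trans (map_zero _)
    obtain ⟨y, hy⟩ := (KG.mk_eq_zero_iff k (KG.zmap Φ z) (n - 1) (by simp)).1
      ((KG.map_mk Φ z).symm.trans h1)
    obtain ⟨a, rfl⟩ := cochain_map_surj Φ y
    rw [map_zero, ← hz, KG.mk_eq_zero_iff k _ (n - 1) (by simp)]
    exact ⟨a, cochain_map_inj Φ (by rw [← δ_map]; exact hy)⟩

theorem exists_map_deg {A B : KG k C} {n : ℤ}
    {g : (KG.map k Φ).obj A ⟶ (KG.map k Φ).obj B} (hg : g ∈ KG.deg k _ _ n) :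
    ∃ f ∈ KG.deg k A B n, (KG.map k Φ).map f = g := by
  obtain ⟨z, rfl⟩ := hg
  obtain ⟨a, ha⟩ := cochain_map_surj Φ z.1
  refine ⟨KG.mk k (Cocycle.mk a (n + 1) rfl (cochain_map_inj Φ ?_)), KG.mk_mem_deg _, ?_⟩
  · rw [← δ_map, ha, Cochain.map_zero]
    exact z.δ_eq_zero _
  · exact (KG.map_mk Φ _).trans (congrArg _ (Cocycle.ext ha))

instance full_map : (KG.map k Φ).Full where
  map_surjective {A B} g := by
    induction g using KG.ind_deg with
    | h0 => exact ⟨0, Functor.map_zero _ _ _⟩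
    | hmk n g hg =>
      obtain ⟨f, -, hf⟩ := exists_map_deg Φ hg
      exact ⟨f, hf⟩
    | hadd x y hx hy =>
      obtain ⟨a, rfl⟩ := hx
      obtain ⟨b, rfl⟩ := hy
      exact ⟨a + b, Functor.map_add _⟩

end FF

variable {X : TopCat.{0}} {S : Set X}

theorem eq_zero_of_supp {G J : Sh k X} (hG : ∀ x ∈ S, IsZero ((Stk k x).obj G))
    (hJ : SuppIn J S) (v : G ⟶ J) : v = 0 := by
  refine hom_ext fun U s => ?_
  rw [app_zero, ← supp_eq_empty, Set.eq_empty_iff_forall_notMem]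
  intro x hx
  exact not_mem_supp_of_isZero (hG x (hJ U _ hx)) s (supp_app v s hx)

/-- Bounded below complexes of injective sheaves supported on `S`. -/
def On (S : Set X) (J : Cx k X) : Prop := InjC J ∧ ∀ n, SuppIn (J.X n) S

theorem On.shift {J : Cx k X} (h : On S J) (m : ℤ) : On S (J⟦m⟧) := by
  obtain ⟨⟨⟨a, ha⟩, hi⟩, hs⟩ := h
  exact ⟨⟨⟨a - m, J.isStrictlyGE_shift a m (a - m) (by omega)⟩, fun n => hi (n + m)⟩,
    fun n => hs (n + m)⟩

theorem On.null {K J : Cx k X} (hJ : On S J) (hK : ∀ x ∈ S, ∀ n, ExAt K n x) (f : K ⟶ J) :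
    Nonempty (Homotopy f 0) := by
  obtain ⟨⟨⟨a, ha⟩, hi⟩, hs⟩ := hJ
  refine null_of_lf a (fun m v _ => ⟨0, ?_⟩) f
  rw [zero_comp, eq_zero_of_supp (fun x hx => (isZero_stk_iff K m x).2 (hK x hx m)) (hs m) v]

theorem On.acy {K J : Cx k X} (hJ : On S J) (hK : ∀ x ∈ S, ∀ n, ExAt K n x) : Acy K J :=
  acy_of_null fun n φ => (hJ.shift n).null hK φ

/-- Precomposition with a map that is a quasi-isomorphism at the points of `S` is bijective on
graded morphisms into a complex of injectives supported on `S`. -/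
theorem On.bij {F F' J : Cx k X} (hJ : On S J) {φ : F ⟶ F'} (hφ : ∀ x ∈ S, QisAt φ x) :
    Function.Bijective fun g : (KG.of F' : KG k _) ⟶ KG.of J => KG.hom k φ ≫ g :=
  bij_of_acy φ (hJ.acy fun x hx => (qisAt_iff_cone φ x).1 (hφ x hx))

theorem On.cancel {F F' J : Cx k X} (hJ : On S J) {φ : F ⟶ F'} (hφ : ∀ x ∈ S, QisAt φ x)
    {g g' : (KG.of F' : KG k _) ⟶ KG.of J} (h : KG.hom k φ ≫ g = KG.hom k φ ≫ g') : g = g' :=
  (hJ.bij hφ).1 h

theorem On.lift {F F' J : Cx k X} (hJ : On S J) {φ : F ⟶ F'} (hφ : ∀ x ∈ S, QisAt φ x) {n : ℤ}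
    {g : (KG.of F : KG k _) ⟶ KG.of J} (hg : g ∈ KG.deg k _ _ n) :
    ∃ g' ∈ KG.deg k (KG.of F') (KG.of J) n, KG.hom k φ ≫ g' = g := by
  obtain ⟨g', h⟩ := (hJ.bij hφ).2 g
  have h : KG.hom k φ ≫ g' = g := h
  refine ⟨KG.pr n g', KG.pr_mem_deg n g', ?_⟩
  rw [← KG.pr_comp_of_left (zero_add n) (KG.hom_mem_deg φ), h, KG.pr_of_mem hg]

/-- A model for the restriction of the complex `F` to `S`. -/
structure Rs (S : Set X) (F : Cx k X) where
  /-- the restricted complex -/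
  J : Cx k X
  /-- the restriction map -/
  ρ : F ⟶ J
  on : On S J
  qis : ∀ x ∈ S, QisAt ρ x

namespace Rs

variable {F G H : Cx k X} (P : Rs S F) (Q : Rs S G) (R : Rs S H)

/-- The restriction map as a graded morphism. -/
abbrev r : (KG.of F : KG k _) ⟶ KG.of P.J := KG.hom k P.ρ

theorem cancel {g g' : (KG.of P.J : KG k _) ⟶ KG.of Q.J} (h : P.r ≫ g = P.r ≫ g') : g = g' :=
  Q.on.cancel P.qis h

/-- The underlying function of the restriction of morphisms. -/
def mp₀ (u : (KG.of F : KG k _) ⟶ KG.of G) : (KG.of P.J : KG k _) ⟶ KG.of Q.J :=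
  ((Q.on.bij P.qis).2 (u ≫ Q.r)).choose

theorem r_mp₀ (u : (KG.of F : KG k _) ⟶ KG.of G) : P.r ≫ P.mp₀ Q u = u ≫ Q.r :=
  ((Q.on.bij P.qis).2 (u ≫ Q.r)).choose_spec

/-- Restriction of graded morphisms. -/
def mp : ((KG.of F : KG k _) ⟶ KG.of G) →ₗ[k] ((KG.of P.J : KG k _) ⟶ KG.of Q.J) where
  toFun := P.mp₀ Q
  map_add' u v := P.cancel Q (by simp [r_mp₀])
  map_smul' c u := P.cancel Q (by simp [r_mp₀])

@[reassoc] theorem r_mp (u : (KG.of F : KG k _) ⟶ KG.of G) : P.r ≫ P.mp Q u = u ≫ Q.r :=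
  P.r_mp₀ Q u

theorem mp_eq {u : (KG.of F : KG k _) ⟶ KG.of G} {w : (KG.of P.J : KG k _) ⟶ KG.of Q.J}
    (h : P.r ≫ w = u ≫ Q.r) : P.mp Q u = w := P.cancel Q (by rw [r_mp, h])

theorem mp_id : P.mp P (𝟙 _) = 𝟙 _ := P.mp_eq P (by simp)

theorem mp_comp (u : (KG.of F : KG k _) ⟶ KG.of G) (v : (KG.of G : KG k _) ⟶ KG.of H) :
    P.mp R (u ≫ v) = P.mp Q u ≫ Q.mp R v :=
  P.mp_eq R (by rw [r_mp_assoc, r_mp, Category.assoc])

theorem mp_mem_deg {n : ℤ} {u : (KG.of F : KG k _) ⟶ KG.of G} (hu : u ∈ KG.deg k _ _ n) :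
    P.mp Q u ∈ KG.deg k _ _ n := by
  obtain ⟨g, hg, h⟩ := Q.on.lift P.qis (KG.comp_mem_deg (add_zero n) hu (KG.hom_mem_deg Q.ρ))
  rwa [P.mp_eq Q h]

/-- Restriction of graded endomorphisms, an algebra map. -/
def alg : End (KG.of F : KG k _) →ₐ[k] End (KG.of P.J : KG k _) :=
  AlgHom.ofLinearMap (P.mp P) P.mp_id fun u v => P.mp_comp P P v u

theorem alg_apply (u : End (KG.of F : KG k _)) : P.alg u = P.mp P u := rfl

end Rs

end P275RS
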