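import Vale.Agent.P275RS.Bij
import Vale.Agent.P275S.Soft
import Vale.Agent.P275S.God

/-! Direct images along embeddings: fully faithful, local properties at the points of the image,
support; models for the restriction of a proper direct image to a closed set. -/

open CategoryTheory TopologicalSpace Opposite Limits P275S P275PV Topology
open CochainComplex CochainComplex.HomComplex

noncomputable section

namespace P275RS

variable {k : Type} [Field k] {X Y S : TopCat.{0}}

/-- The largest open set whose inverse image lies in `V`. -/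
def big (i : X ⟶ Y) (V : Opens X) : Opens Y := sSup {U | (Opens.map i).obj U ≤ V}

theorem le_big {i : X ⟶ Y} {V : Opens X} {U : Opens Y} (h : (Opens.map i).obj U ≤ V) :
    U ≤ big i V := le_sSup h

theorem map_big_le (i : X ⟶ Y) (V : Opens X) : (Opens.map i).obj (big i V) ≤ V := by
  intro x hx
  obtain ⟨U, hU, hx⟩ := Opens.mem_sSup.1 (show i x ∈ big i V from hx)
  exact hU hx

theorem big_mono (i : X ⟶ Y) {V W : Opens X} (h : W ≤ V) : big i W ≤ big i V :=
  le_big ((map_big_le i W).trans h)

theorem le_map_big {i : X ⟶ Y} (hi : IsInducing i) (V : Opens X) :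
    V ≤ (Opens.map i).obj (big i V) := by
  obtain ⟨U, hU, e⟩ := hi.isOpen_iff.1 V.2
  intro x hx
  exact le_big (U := ⟨U, hU⟩) (fun y hy => e.subset hy) (e.symm.subset hx)

theorem map_le (i : X ⟶ Y) {U V : Opens Y} (h : V ≤ U) :
    (Opens.map i).obj V ≤ (Opens.map i).obj U := fun _ hx => h hx

theorem faithful_push {i : X ⟶ Y} (hi : IsInducing i) : (push k i).Faithful where
  map_injective {F G φ ψ} h := hom_ext fun V s => by
    have h1 := congrArg (fun t => app t (big i V) (res F (map_big_le i V) s)) h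
    have h2 : app φ _ (res F (map_big_le i V) s) = app ψ _ (res F (map_big_le i V) s) := h1
    have h3 := congrArg (res G (le_map_big hi V)) h2
    simpa only [← app_res, res_res, res_self] using h3

theorem full_push {i : X ⟶ Y} (hi : IsInducing i) : (push k i).Full where
  map_surjective {F G} ψ := by
    let a : ∀ U : Opens Y, sec F ((Opens.map i).obj U) →ₗ[k] sec G ((Opens.map i).obj U) :=
      fun U => app ψ U
    have ha : ∀ U V (h : V ≤ U) s, a V (res F (map_le i h) s) =
        res G (map_le i h) (a U s) := fun U V h s => app_res ψ h s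
    refine ⟨mkHom (fun V => res G (le_map_big hi V) ∘ₗ a (big i V) ∘ₗ res F (map_big_le i V))
      fun U V hV s => ?_, hom_ext fun U s => ?_⟩
    · have := ha _ _ (big_mono i hV) (res F (map_big_le i U) s)
      simp only [LinearMap.comp_apply, res_res] at this ⊢
      rw [this, res_res]
    · have := ha _ _ (le_big (le_refl ((Opens.map i).obj U))) (res F (map_big_le i _) s)
      refine this.symm.trans (congrArg (a U) ?_)
      exact (res_res F _ _ _).trans (res_self F _ _)

/-- Vanishing on cohomology at a point is unchanged by the direct image along an embedding. -/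
theorem zeroAt_push_emb {i : X ⟶ Y} (hi : IsInducing i) {F G : Cx k X} (φ : F ⟶ G) (n : ℤ)
    (x : X) : ZeroAt ((pushC k i).map φ) n (i x) ↔ ZeroAt φ n x := by
  constructor
  · intro h U hx s hs
    obtain ⟨V, hV, hxV, t, ht⟩ := h (big i U) (le_map_big hi U hx) (res _ (map_big_le i U) s) (by
      change app (F.d n (n + 1)) _ (res _ (map_big_le i U) s) = 0
      rw [app_res, hs, map_zero])
    refine ⟨(Opens.map i).obj V, fun y hy => map_big_le i U (hV hy), hxV, t, ht.trans ?_⟩
    change res (G.X n) (map_le i hV) (app (φ.f n) _ (res (F.X n) (map_big_le i U) s)) = _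
    rw [app_res, res_res]
  · intro h U hx s hs
    obtain ⟨V, hV, hxV, t, ht⟩ := h ((Opens.map i).obj U) hx s hs
    have hle : (Opens.map i).obj (U ⊓ big i V) ≤ V := fun y hy => map_big_le i V hy.2
    refine ⟨U ⊓ big i V, inf_le_left, ⟨hx, le_map_big hi V hxV⟩, res _ hle t, ?_⟩
    change app (G.d (n - 1) n) _ (res _ hle t) = _
    rw [app_res, ht, res_res]
    rfl

theorem exAt_push_emb {i : X ⟶ Y} (hi : IsInducing i) (F : Cx k X) (n : ℤ) (x : X) :
    ExAt ((pushC k i).obj F) n (i x) ↔ ExAt F n x := by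
  rw [← zeroAt_id, ← zeroAt_id, ← zeroAt_push_emb hi, CategoryTheory.Functor.map_id]

theorem qisAt_push_emb {i : X ⟶ Y} (hi : IsInducing i) {F G : Cx k X} (φ : F ⟶ G) (x : X) :
    QisAt ((pushC k i).map φ) (i x) ↔ QisAt φ x := by
  rw [qisAt_mapC_iff (push k i) φ (i x), qisAt_iff_cone]
  exact forall_congr' fun n => exAt_push_emb hi _ n x

/-- A direct image is supported in any closed set containing the image. -/
theorem suppIn_push (f : X ⟶ Y) {Z : Set Y} (hZ : IsClosed Z) (hf : ∀ x, f x ∈ Z) (F : Sh k X) :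
    SuppIn ((push k f).obj F) Z := by
  intro U s y hy
  by_contra hn
  refine hy.2 (U ⊓ ⟨Zᶜ, hZ.isOpen_compl⟩) inf_le_left ⟨hy.1, hn⟩ ?_
  exact loc_zero F _ fun x hx => absurd (hf x) hx.2

theorem on_push (f : X ⟶ Y) {Z : Set Y} (hZ : IsClosed Z) (hf : ∀ x, f x ∈ Z) {J : Cx k X}
    (hJ : InjC J) : On Z ((pushC k f).obj J) :=
  ⟨hJ.push f, fun n => suppIn_push f hZ hf (J.X n)⟩

theorem On.push {Z : Set X} {J : Cx k X} (hJ : On Z J) (f : X ⟶ Y) {W : Set Y}
    (hW : IsClosed W) (hf : ∀ x ∈ Z, f x ∈ W) : On W ((pushC k f).obj J) := by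
  refine ⟨hJ.1.push f, fun n U s y hy => ?_⟩
  by_contra hn
  refine hy.2 (U ⊓ ⟨Wᶜ, hW.isOpen_compl⟩) inf_le_left ⟨hy.1, hn⟩ ?_
  refine (res_eq_zero_iff (F := J.X n) (map_le f inf_le_left) s).2
    (Set.disjoint_left.2 fun x hx hx' => hx'.2 (hf x (hJ.2 n _ s hx)))

/-- Proper base change: the proper direct image of a model of the restriction to `h ⁻¹ Z` is a
model of the restriction to `Z`. -/
def Rs.push [Nice X] {F : Cx k X} (hF : SoftC F) (h : X ⟶ Y) (hh : IsProperMap h) {Z : Set Y}
    (hZ : IsClosed Z) (P : Rs (h ⁻¹' Z) F) : Rs Z ((pushC k h).obj F) where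
  J := (pushC k h).obj P.J
  ρ := (pushC k h).map P.ρ
  on := P.on.push h hZ fun _ hx => hx
  qis a ha := qisAt_push hh hF P.on.1.softC P.ρ fun x hx => P.qis x (by
    change h x ∈ Z
    rwa [hx])

end P275RS
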